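import Mathlib.Data.Real.Basic
import Mathlib.Algebra.BigOperators.Fin
import Mathlib.Tactic.FinCases
import Mathlib.Tactic.Linarith
import Mathlib.Topology.Algebra.Monoid
import Mathlib.Topology.Instances.Real.Lemmas

/-!
Three by three matrices and cross products, by components.
-/

namespace Vale.Agent.P243.SymHalf

noncomputable section

/-- Vectors. -/
abbrev W3 : Type := Fin 3 → ℝ

/-- Matrices. -/
abbrev M3 : Type := Fin 3 → Fin 3 → ℝ

/-- Dot product. -/
def dt (a b : W3) : ℝ := a 0 * b 0 + a 1 * b 1 + a 2 * b 2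

/-- Matrix times vector. -/
def app (M : M3) (x : W3) : W3 := fun i => dt (M i) x

/-- Vector times matrix. -/
def rap (p : W3) (M : M3) : W3 := fun j => p 0 * M 0 j + p 1 * M 1 j + p 2 * M 2 j

/-- Cross product. -/
def cr (a b : W3) : W3 :=
  ![a 1 * b 2 - a 2 * b 1, a 2 * b 0 - a 0 * b 2, a 0 * b 1 - a 1 * b 0]

/-- Determinant. -/
def det3 (M : M3) : ℝ :=
  M 0 0 * (M 1 1 * M 2 2 - M 1 2 * M 2 1) - M 0 1 * (M 1 0 * M 2 2 - M 1 2 * M 2 0)
    + M 0 2 * (M 1 0 * M 2 1 - M 1 1 * M 2 0)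

/-- The quadratic point of a vector. -/
def outer (a : W3) : M3 := fun i j => a i * a j

/-- The identity matrix. -/
def idM : M3 := fun i j => if i = j then 1 else 0

/-- Symmetric part of the Gram matrix of the rows. -/
def gram (M : M3) : M3 := fun i j => M 0 i * M 0 j + M 1 i * M 1 j + M 2 i * M 2 j

/-- Pairing of two matrices. -/
def pair (G A : M3) : ℝ :=
  dt (G 0) (A 0) + dt (G 1) (A 1) + dt (G 2) (A 2)

/-- The mixed cofactor matrix. -/
def mix (A B : M3) : M3 := fun a b =>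
  A (a + 1) (b + 1) * B (a + 2) (b + 2) - A (a + 1) (b + 2) * B (a + 2) (b + 1)
    - A (a + 2) (b + 1) * B (a + 1) (b + 2) + A (a + 2) (b + 2) * B (a + 1) (b + 1)

theorem add_one_fin : ((0 : Fin 3) + 1 = 1) ∧ ((1 : Fin 3) + 1 = 2) ∧ ((2 : Fin 3) + 1 = 0) ∧
    ((0 : Fin 3) + 2 = 2) ∧ ((1 : Fin 3) + 2 = 0) ∧ ((2 : Fin 3) + 2 = 1) := by decide

theorem app_add (M : M3) (x y : W3) : app M (x + y) = app M x + app M y := by
  funext i; simp only [app, dt, Pi.add_apply]; ring

theorem app_smul (M : M3) (c : ℝ) (x : W3) : app M (c • x) = c • app M x := by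
  funext i; simp only [app, dt, Pi.smul_apply, smul_eq_mul]; ring

theorem dt_app (p x : W3) (M : M3) : dt p (app M x) = dt (rap p M) x := by
  simp only [dt, app, rap]; ring

theorem dt_self_nonneg (a : W3) : 0 ≤ dt a a :=
  add_nonneg (add_nonneg (mul_self_nonneg _) (mul_self_nonneg _)) (mul_self_nonneg _)

theorem dt_self_pos {a : W3} (h : a ≠ 0) : 0 < dt a a := by
  refine (dt_self_nonneg a).lt_of_ne' fun h0 => h ?_
  unfold dt at h0
  funext i
  have h1 := mul_self_nonneg (a 0)
  have h2 := mul_self_nonneg (a 1)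
  have h3 := mul_self_nonneg (a 2)
  fin_cases i <;> simp <;> nlinarith

theorem app_cr (M : M3) (p q : W3) : app M (cr (rap p M) (rap q M)) = det3 M • cr p q := by
  funext i
  fin_cases i <;> simp [app, rap, cr, dt, det3] <;> ring

theorem quad_cr (M : M3) (u v : W3) :
    dt (app M (cr u v)) (app M (cr u v)) = pair (gram M) (mix (outer u) (outer v)) := by
  obtain ⟨h1, h2, h3, h4, h5, h6⟩ := add_one_fin
  simp [app, dt, cr, pair, gram, mix, outer, h1, h2, h3, h4, h5, h6]
  ring

theorem quad_self (M : M3) (x : W3) : dt (app M x) (app M x) = pair (gram M) (outer x) := by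
  simp [app, dt, pair, gram, outer]; ring

theorem mix_linear_left (G A A' B : M3) (s t : ℝ) :
    pair G (mix (s • A + t • A') B) = s * pair G (mix A B) + t * pair G (mix A' B) := by
  simp [pair, dt, mix]; ring

theorem mix_linear_right (G A B B' : M3) (s t : ℝ) :
    pair G (mix A (s • B + t • B')) = s * pair G (mix A B) + t * pair G (mix A B') := by
  simp [pair, dt, mix]; ring

theorem pair_linear (G A A' : M3) (s t : ℝ) :
    pair G (s • A + t • A') = s * pair G A + t * pair G A' := by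
  simp [pair, dt]; ring

/-- The key identity for `2 A + L = 1`. -/
theorem mix_identity (M : M3) (A L : M3) (h : ∀ i j, 2 * A i j + L i j = idM i j)
    (hL : ∀ i j, L i j = L j i) (ht : L 0 0 + L 1 1 + L 2 2 = 1) :
    4 * pair (gram M) (mix A A) = 2 * pair (gram M) L + pair (gram M) (mix L L) := by
  have hA : ∀ i j, A i j = (idM i j - L i j) / 2 := fun i j => by linarith [h i j]
  have h22 : L 2 2 = 1 - L 0 0 - L 1 1 := by linarith
  obtain ⟨h1, h2, h3, h4, h5, h6⟩ := add_one_fin
  simp [pair, dt, mix, gram, hA, idM, h1, h2, h3, h4, h5, h6, hL 1 0, hL 2 0, hL 2 1, h22]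
  ring

theorem cr_self_le (a b : W3) : dt (cr a b) (cr a b) = dt a a * dt b b - dt a b ^ 2 := by
  simp [cr, dt]; ring

theorem det3_sq_le (M : M3) {B : ℝ} (hB : ∀ x, dt x x = 1 → dt (app M x) (app M x) ≤ B) :
    det3 M ^ 2 ≤ B ^ 3 := by
  set c : Fin 3 → W3 := fun j i => M i j with hc
  have hcol : ∀ j, dt (c j) (c j) ≤ B := fun j => by
    have h := hB (fun i => if i = j then 1 else 0) (by fin_cases j <;> simp [dt])
    fin_cases j <;> simpa [hc, app, dt] using h
  have hB0 : 0 ≤ B := le_trans (dt_self_nonneg _) (hcol 0)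
  have hd : det3 M = dt (c 0) (cr (c 1) (c 2)) := by
    simp [hc, det3, dt, cr]; ring
  have h1 : det3 M ^ 2 ≤ dt (c 0) (c 0) * dt (cr (c 1) (c 2)) (cr (c 1) (c 2)) := by
    have := dt_self_nonneg (cr (c 0) (cr (c 1) (c 2)))
    rw [cr_self_le] at this
    rw [hd]; linarith
  have h2 : dt (cr (c 1) (c 2)) (cr (c 1) (c 2)) ≤ B * B := by
    rw [cr_self_le]
    nlinarith [mul_le_mul (hcol 1) (hcol 2) (dt_self_nonneg _) hB0, sq_nonneg (dt (c 1) (c 2))]
  refine h1.trans ((mul_le_mul (hcol 0) h2 (dt_self_nonneg _) hB0).trans (le_of_eq ?_))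
  ring

end

end Vale.Agent.P243.SymHalf
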