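import Vale.Agent.P243.SymHalf.Contact
import Vale.Agent.P243.Gap.Fiber
import Mathlib.Analysis.SpecialFunctions.Trigonometric.InverseDeriv
import Mathlib.MeasureTheory.Measure.Lebesgue.VolumeOfBalls
import Mathlib.LinearAlgebra.Matrix.ToLin
import Mathlib.Analysis.InnerProductSpace.Dual

/-!
Cylinder coverings of an ellipsoid: the base areas add up to at least its least shadow.
-/

namespace Vale.Agent.P243.SymHalf

open MeasureTheory Set Filter Topology Gap
open scoped ENNReal InnerProductSpace Real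

noncomputable section

/-- The smoothed weight on the unit ball. -/
def wgt (ε : ℝ) : R3 → ℝ≥0∞ :=
  (Metric.closedBall (0 : R3) 1).indicator fun z => ENNReal.ofReal (Real.sqrt (1 + ε - ‖z‖ ^ 2))⁻¹

theorem measurable_wgt (ε : ℝ) : Measurable (wgt ε) :=
  (by fun_prop : Measurable fun z : R3 => ENNReal.ofReal (Real.sqrt (1 + ε - ‖z‖ ^ 2))⁻¹).indicator
    measurableSet_closedBall

/-- The weight of a line. -/
theorem line_eq {ε : ℝ} (hε : 0 < ε) (a v : R3) (hv : v ≠ 0) :
    let r := ‖a‖ ^ 2 - ⟪a, v⟫_ℝ ^ 2 / ‖v‖ ^ 2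
    ∫⁻ s : ℝ, wgt ε (a + s • v) = if r ≤ 1 then
      ENNReal.ofReal (2 * Real.arcsin (Real.sqrt (1 - r) / Real.sqrt (1 + ε - r)) / ‖v‖) else 0 := by
  intro r
  set n := ‖v‖ with hn
  have hn0 : 0 < n := norm_pos_iff.2 hv
  set c := ⟪a, v⟫_ℝ / n ^ 2 with hc
  have hnorm : ∀ s : ℝ, ‖a + s • v‖ ^ 2 = r + n ^ 2 * (s + c) ^ 2 := fun s => by
    rw [norm_add_sq_real, real_inner_smul_right, norm_smul, Real.norm_eq_abs, mul_pow, sq_abs]
    simp only [r, hc, ← hn]
    field_simp
    ring
  have hmem : ∀ s : ℝ, a + s • v ∈ Metric.closedBall (0 : R3) 1 ↔ r + n ^ 2 * (s + c) ^ 2 ≤ 1 :=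
    fun s => by rw [mem_closedBall_zero_iff, ← hnorm, sq_le_one_iff₀ (norm_nonneg _)]
  split_ifs with hr
  swap
  · refine lintegral_eq_zero_of_ae_eq_zero (Eventually.of_forall fun s => ?_)
    refine indicator_of_notMem (fun h => hr ?_) _
    rw [hmem] at h
    nlinarith [mul_nonneg (sq_nonneg n) (sq_nonneg (s + c))]
  set h := Real.sqrt (1 - r) / n with hh
  set D := Real.sqrt (1 + ε - r) with hD
  have hD0 : 0 < D := Real.sqrt_pos.2 (by linarith)
  have hD2 : D * D = 1 + ε - r := Real.mul_self_sqrt (by linarith)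
  have hh0 : 0 ≤ h := by positivity
  have hh2 : (n * h) ^ 2 = 1 - r := by
    rw [hh, mul_div_cancel₀ _ hn0.ne', Real.sq_sqrt (by linarith)]
  have hint : ∀ s : ℝ, a + s • v ∈ Metric.closedBall (0 : R3) 1 ↔ s ∈ Icc (-c - h) (-c + h) := by
    intro s
    have e : r + n ^ 2 * (s + c) ^ 2 ≤ 1 ↔ (s + c) ^ 2 ≤ h ^ 2 := by
      constructor <;> intro hs
      · exact le_of_mul_le_mul_left (by nlinarith) (pow_pos hn0 2)
      · nlinarith [mul_le_mul_of_nonneg_left hs (sq_nonneg n)]
    rw [hmem, e, sq_le_sq, abs_of_nonneg hh0, abs_le, mem_Icc]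
    constructor <;> intro hs <;> constructor <;> linarith [hs.1, hs.2]
  have hlt : ∀ s ∈ Icc (-c - h) (-c + h), (n * (s + c) / D) ^ 2 < 1 := fun s hs => by
    have h1 := (hmem s).1 ((hint s).2 hs)
    rw [div_pow, div_lt_one (by positivity)]
    nlinarith
  set F : ℝ → ℝ := fun s => Real.arcsin (n * (s + c) / D) / n with hF
  set f : ℝ → ℝ := fun s => (Real.sqrt (1 + ε - ‖a + s • v‖ ^ 2))⁻¹ with hf
  have hderiv : ∀ s ∈ uIcc (-c - h) (-c + h), HasDerivAt F (f s) s := by
    intro s hs
    rw [uIcc_of_le (by linarith)] at hs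
    have h1 := hlt s hs
    have hx : HasDerivAt (fun s => n * (s + c) / D) (n / D) s := by
      simpa using (((hasDerivAt_id s).add_const c).const_mul n).div_const D
    have h2 := ((Real.hasDerivAt_arcsin (x := n * (s + c) / D) (fun e => by
      rw [e] at h1; norm_num at h1) (fun e => by rw [e] at h1; norm_num at h1)).comp s hx).div_const n
    refine h2.congr_deriv ?_
    rw [hf]
    simp only [hnorm]
    have e : 1 - (n * (s + c) / D) ^ 2 = (1 + ε - (r + n ^ 2 * (s + c) ^ 2)) / (D * D) := by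
      field_simp
      nlinarith [hD2]
    rw [e, Real.sqrt_div (by have := (hmem s).1 ((hint s).2 hs); linarith), Real.sqrt_mul_self hD0.le]
    field_simp
  have hcont : ContinuousOn f (Icc (-c - h) (-c + h)) := by
    refine ContinuousOn.inv₀ (by fun_prop) fun s hs => (Real.sqrt_pos.2 ?_).ne'
    rw [hnorm]
    have := (hmem s).1 ((hint s).2 hs)
    linarith
  have hI : ∫ s in (-c - h)..(-c + h), f s =
      2 * Real.arcsin (Real.sqrt (1 - r) / D) / n := by
    rw [intervalIntegral.integral_eq_sub_of_hasDerivAt hderiv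
      (hcont.intervalIntegrable_of_Icc (by linarith)), hF]
    have e1 : n * (-c + h + c) / D = Real.sqrt (1 - r) / D := by
      rw [hh]; field_simp; ring
    have e2 : n * (-c - h + c) / D = -(Real.sqrt (1 - r) / D) := by
      rw [hh]; field_simp; ring
    simp only [e1, e2, Real.arcsin_neg]
    ring
  rw [← hI, intervalIntegral.integral_of_le (by linarith), ← integral_Icc_eq_integral_Ioc,
    ofReal_integral_eq_lintegral_ofReal hcont.integrableOn_Icc
      (Eventually.of_forall fun s => inv_nonneg.2 (Real.sqrt_nonneg _)),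
    ← lintegral_indicator measurableSet_Icc]
  refine lintegral_congr fun s => ?_
  by_cases hs : s ∈ Icc (-c - h) (-c + h)
  · rw [indicator_of_mem hs, wgt, indicator_of_mem ((hint s).2 hs)]
  · rw [indicator_of_notMem hs, wgt, indicator_of_notMem fun h' => hs ((hint s).1 h')]

theorem line_le {ε : ℝ} (hε : 0 < ε) (a v : R3) (hv : v ≠ 0) :
    ∫⁻ s : ℝ, wgt ε (a + s • v) ≤ ENNReal.ofReal (π / ‖v‖) := by
  rw [line_eq hε a v hv]
  split_ifs
  · refine ENNReal.ofReal_le_ofReal (div_le_div_of_nonneg_right ?_ (norm_nonneg _))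
    linarith [Real.arcsin_le_pi_div_two
      (Real.sqrt (1 - (‖a‖ ^ 2 - ⟪a, v⟫_ℝ ^ 2 / ‖v‖ ^ 2)) /
        Real.sqrt (1 + ε - (‖a‖ ^ 2 - ⟪a, v⟫_ℝ ^ 2 / ‖v‖ ^ 2)))]
  · exact bot_le

theorem volume_disk {ρ : ℝ} (hρ : 0 ≤ ρ) :
    volume {p : ℝ × ℝ | p.1 ^ 2 + p.2 ^ 2 ≤ ρ ^ 2} = ENNReal.ofReal (π * ρ ^ 2) := by
  have hm : MeasurableSet {p : ℝ × ℝ | p.1 ^ 2 + p.2 ^ 2 ≤ ρ ^ 2} :=
    measurableSet_le (by fun_prop) measurable_const
  rw [← Complex.volume_preserving_equiv_real_prod.measure_preimage hm.nullMeasurableSet]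
  have e : Complex.measurableEquivRealProd ⁻¹' {p : ℝ × ℝ | p.1 ^ 2 + p.2 ^ 2 ≤ ρ ^ 2} =
      Metric.closedBall (0 : ℂ) ρ := by
    ext z
    simp only [mem_preimage, mem_ofPred_eq, mem_closedBall_zero_iff,
      Complex.measurableEquivRealProd_apply]
    rw [← sq_le_sq₀ (norm_nonneg z) hρ, Complex.sq_norm, Complex.normSq_apply, sq, sq, sq]
  rw [e, Complex.volume_closedBall, mul_comm, ← ENNReal.ofReal_pow hρ, ← NNReal.coe_real_pi,
    ENNReal.ofReal_mul NNReal.pi.coe_nonneg, ENNReal.ofReal_coe_nnreal]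

/-- The total weight. -/
theorem wgt_total {δ : ℝ} (hδ : 0 < δ) (hδ1 : δ < 1) :
    ENNReal.ofReal (π * (1 - δ) * (2 * Real.arcsin (Real.sqrt (1 / (1 + δ))))) ≤
      ∫⁻ z, wgt (δ ^ 2) z := by
  obtain ⟨c, hc⟩ := exists_frame_one (EuclideanSpace.single (1 : Fin 3) (1 : ℝ)) (by simp)
  rw [← (line_preserving c).lintegral_comp (measurable_wgt _), Measure.volume_eq_prod,
    lintegral_prod (fun a => wgt (δ ^ 2) (line c a))
      ((measurable_wgt _).comp (line_preserving c).measurable).aemeasurable]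
  have h1 : ‖c 1‖ = 1 := c.orthonormal.1 1
  set C := ENNReal.ofReal (2 * Real.arcsin (Real.sqrt (1 / (1 + δ)))) with hC
  have hρ : 0 ≤ Real.sqrt (1 - δ) := Real.sqrt_nonneg _
  calc ENNReal.ofReal (π * (1 - δ) * (2 * Real.arcsin (Real.sqrt (1 / (1 + δ)))))
      = C * volume {p : ℝ × ℝ | p.1 ^ 2 + p.2 ^ 2 ≤ Real.sqrt (1 - δ) ^ 2} := by
        rw [volume_disk hρ, Real.sq_sqrt (by linarith), hC, ← ENNReal.ofReal_mul (by
          have := Real.arcsin_nonneg.2 (Real.sqrt_nonneg (1 / (1 + δ))); positivity)]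
        congr 1; ring
    _ = ∫⁻ p, {p : ℝ × ℝ | p.1 ^ 2 + p.2 ^ 2 ≤ Real.sqrt (1 - δ) ^ 2}.indicator (fun _ => C) p := by
        rw [lintegral_indicator (measurableSet_le (by fun_prop) measurable_const), setLIntegral_const]
    _ ≤ _ := by
        refine lintegral_mono fun p => ?_
        by_cases hp : p ∈ {p : ℝ × ℝ | p.1 ^ 2 + p.2 ^ 2 ≤ Real.sqrt (1 - δ) ^ 2}
        swap
        · rw [indicator_of_notMem hp]; exact bot_le
        rw [indicator_of_mem hp]
        have hv : c 1 ≠ 0 := fun e => by rw [e, norm_zero] at h1; norm_num at h1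
        show C ≤ ∫⁻ s, wgt (δ ^ 2) (iota c p + s • c 1)
        rw [line_eq (pow_pos hδ 2) _ _ hv, h1, real_inner_comm, inner_iota]
        have hn : ‖iota c p‖ ^ 2 = p.1 ^ 2 + p.2 ^ 2 := by
          have ho := orthonormal_iff_ite.1 c.orthonormal
          show ‖p.2 • c 0 + p.1 • c 2‖ ^ 2 = _
          rw [norm_add_sq_real, norm_smul, norm_smul, c.orthonormal.1, c.orthonormal.1,
            real_inner_smul_left, real_inner_smul_right, ho, if_neg (by decide)]
          simp
          ring
        have hp' : ‖iota c p‖ ^ 2 ≤ 1 - δ := by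
          rw [hn]; exact le_trans hp (le_of_eq (Real.sq_sqrt (by linarith)))
        set r := ‖iota c p‖ ^ 2 with hr
        simp only [ne_eq, OfNat.ofNat_ne_zero, not_false_eq_true, zero_pow, zero_div, sub_zero,
          div_one]
        rw [if_pos (by linarith), hC]
        refine ENNReal.ofReal_le_ofReal ?_
        refine mul_le_mul_of_nonneg_left (Real.arcsin_le_arcsin ?_) (by norm_num)
        rw [← Real.sqrt_div (by linarith)]
        refine Real.sqrt_le_sqrt ?_
        rw [div_le_div_iff₀ (by linarith) (by nlinarith)]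
        nlinarith

/-- The linear map of a matrix. -/
def lin (M : M3) : R3 →ₗ[ℝ] R3 := Matrix.toEuclideanLin (Matrix.of M)

theorem lin_apply (M : M3) (z : R3) : lin M z = WithLp.toLp 2 (app M (WithLp.ofLp z)) := by
  apply (WithLp.linearEquiv 2 ℝ (Fin 3 → ℝ)).injective
  funext i
  simp [lin, app, dt, Matrix.mulVec, dotProduct, Fin.sum_univ_three]

theorem det_lin (M : M3) : LinearMap.det (lin M) = det3 M := by
  rw [lin, Matrix.toEuclideanLin, ← LinearMap.det_toMatrix (PiLp.basisFun 2 ℝ (Fin 3))]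
  simp [Matrix.det_fin_three, det3]
  ring

theorem norm_sq_dt (z : R3) : ‖z‖ ^ 2 = dt (WithLp.ofLp z) (WithLp.ofLp z) := by
  simp [EuclideanSpace.norm_sq_eq, Fin.sum_univ_three, dt]; ring

theorem norm_lin_le (M : M3) (z : R3) : ‖lin M z‖ ≤ Real.sqrt (bsq M) * ‖z‖ := by
  have hb : 0 ≤ bsq M := by
    obtain ⟨x, -, hx⟩ := exists_bsq M
    exact hx ▸ dt_self_nonneg _
  refine (pow_le_pow_iff_left₀ (norm_nonneg _) (by positivity) two_ne_zero).1 ?_
  rw [mul_pow, Real.sq_sqrt hb, norm_sq_dt, norm_sq_dt, lin_apply]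
  exact app_le_bsq M _

/-- The base areas of cylinders covering an ellipsoid. -/
theorem ellipsoid_bound (M : M3) (hdet : det3 M ≠ 0) {m : ℕ} (u : Fin m → R3)
    (hu : ∀ i, ‖u i‖ = 1) (B : Fin m → Set R3) (hB : ∀ i, MeasurableSet (B i))
    (hBp : ∀ i, ∀ b ∈ B i, ⟪u i, b⟫_ℝ = 0)
    (hcov : ∀ z : R3, ‖z‖ ≤ 1 → lin M z ∈ ⋃ i, cylinder (u i) (B i)) :
    ENNReal.ofReal (π * |det3 M| / Real.sqrt (bsq M)) ≤ ∑ i, planeArea (u i) (B i) := by
  have hd : LinearMap.det (lin M) ≠ 0 := by rwa [det_lin]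
  set e : R3 ≃ₗ[ℝ] R3 := LinearMap.equivOfDetNeZero (lin M) hd with he
  have hee : ∀ z, e z = lin M z := fun z => rfl
  set b := Real.sqrt (bsq M) with hb
  have hes : Continuous e.symm := e.symm.toLinearMap.continuous_of_finiteDimensional
  have hb0 : 0 < b := by
    refine (Real.sqrt_nonneg _).lt_of_ne' fun e0 => ?_
    have h := norm_lin_le M (e.symm (EuclideanSpace.single 0 1))
    rw [← hee, LinearEquiv.apply_symm_apply, e0, zero_mul] at h
    simp at h
    linarith
  have key : ∀ δ ∈ Ioo (0 : ℝ) 1,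
      ENNReal.ofReal (|det3 M| * (1 - δ) * (2 * Real.arcsin (Real.sqrt (1 / (1 + δ)))) / b) ≤
        ∑ i, planeArea (u i) (B i) := by
    intro δ hδ
    set g : R3 → ℝ≥0∞ := fun x => wgt (δ ^ 2) (e.symm x) with hg
    have hgm : Measurable g := (measurable_wgt _).comp hes.measurable
    have hcyl : ∀ i, ∫⁻ x in cylinder (u i) (B i), g x ≤
        ENNReal.ofReal (π * b) * planeArea (u i) (B i) := by
      intro i
      obtain ⟨c, hc⟩ := exists_frame_one (u i) (hu i)
      rw [cylinder_eq (hu i) (hBp i), ← hc]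
      have hXm : MeasurableSet (planeProj (c 1) ⁻¹' B i) := (continuous_planeProj _).measurable (hB i)
      have hf : Measurable ((planeProj (c 1) ⁻¹' B i).indicator g) := hgm.indicator hXm
      rw [← lintegral_indicator hXm, ← (line_preserving c).lintegral_comp hf,
        Measure.volume_eq_prod, lintegral_prod (fun a => (planeProj (c 1) ⁻¹' B i).indicator g (line c a))
          (hf.comp (line_preserving c).measurable).aemeasurable,
        planeArea_eq c (hB i)]
      have hu1 : ‖c 1‖ = 1 := c.orthonormal.1 1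
      have hproj : ∀ (p : ℝ × ℝ) (s : ℝ), planeProj (c 1) (iota c p + s • c 1) = iota c p :=
        fun p s => by simp [planeProj, inner_add_right, inner_iota, inner_smul_right, hu1]
      calc _ ≤ ∫⁻ p, ((iota c) ⁻¹' B i).indicator (fun _ => ENNReal.ofReal (π * b)) p := by
            refine lintegral_mono fun p => ?_
            by_cases hp : iota c p ∈ B i
            · rw [indicator_of_mem (show p ∈ (iota c) ⁻¹' B i from hp)]
              have hv : e.symm (c 1) ≠ 0 := fun h0 => by
                have : c 1 = 0 := by simpa using congrArg e h0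
                rw [this, norm_zero] at hu1; norm_num at hu1
              calc ∫⁻ s, (planeProj (c 1) ⁻¹' B i).indicator g (line c (p, s))
                  ≤ ∫⁻ s, wgt (δ ^ 2) (e.symm (iota c p) + s • e.symm (c 1)) := by
                    refine lintegral_mono fun s => ?_
                    refine (indicator_le_self _ _ _).trans (le_of_eq ?_)
                    simp [g, line, map_add, map_smul]
                _ ≤ _ := by
                    refine (line_le (pow_pos hδ.1 2) _ _ hv).trans (ENNReal.ofReal_le_ofReal ?_)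
                    rw [div_le_iff₀ (norm_pos_iff.2 hv), mul_assoc]
                    refine le_mul_of_one_le_right Real.pi_pos.le ?_
                    have h := norm_lin_le M (e.symm (c 1))
                    rwa [← hee, LinearEquiv.apply_symm_apply, hu1] at h
            · rw [indicator_of_notMem (show p ∉ (iota c) ⁻¹' B i from hp)]
              refine le_of_eq ((lintegral_congr fun s => indicator_of_notMem ?_ _).trans lintegral_zero)
              exact fun h => hp (by simpa [line, hproj] using h)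
        _ = _ := by
            rw [lintegral_indicator ((continuous_iota c).measurable (hB i)), setLIntegral_const]
    have hsub : ∫⁻ x, g x ≤ ∫⁻ x in ⋃ i, cylinder (u i) (B i), g x := by
      rw [← lintegral_indicator (MeasurableSet.iUnion fun i => by
        rw [cylinder_eq (hu i) (hBp i)]; exact (continuous_planeProj _).measurable (hB i))]
      refine lintegral_mono fun x => ?_
      by_cases hx : e.symm x ∈ Metric.closedBall (0 : R3) 1
      · have h := hcov (e.symm x) (mem_closedBall_zero_iff.1 hx)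
        rw [← hee, LinearEquiv.apply_symm_apply] at h
        rw [indicator_of_mem h]
      · simp [g, wgt, indicator_of_notMem hx]
    have hmap : ∫⁻ x, g x = ENNReal.ofReal |det3 M| * ∫⁻ z, wgt (δ ^ 2) z := by
      have hM : Measurable (lin M) := (lin M).continuous_of_finiteDimensional.measurable
      have h := lintegral_map (μ := (volume : Measure R3)) hgm hM
      rw [Measure.map_linearMap_addHaar_eq_smul_addHaar volume hd, lintegral_smul_measure, det_lin] at h
      have e1 : ∀ z, g (lin M z) = wgt (δ ^ 2) z := fun z => by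
        simp only [g]; rw [← hee, LinearEquiv.symm_apply_apply]
      simp only [e1] at h
      rw [← h, smul_eq_mul, ← mul_assoc, ← ENNReal.ofReal_mul (abs_nonneg _), ← abs_mul,
        mul_inv_cancel₀ hdet, abs_one, ENNReal.ofReal_one, one_mul]
    have htot : ENNReal.ofReal |det3 M| *
        ENNReal.ofReal (π * (1 - δ) * (2 * Real.arcsin (Real.sqrt (1 / (1 + δ))))) ≤
        ENNReal.ofReal (π * b) * ∑ i, planeArea (u i) (B i) :=
      calc _ ≤ ∫⁻ x, g x := by rw [hmap]; gcongr; exact wgt_total hδ.1 hδ.2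
        _ ≤ ∫⁻ x in ⋃ i, cylinder (u i) (B i), g x := hsub
        _ ≤ ∑' i, ∫⁻ x in cylinder (u i) (B i), g x := lintegral_iUnion_le _ _
        _ = ∑ i, ∫⁻ x in cylinder (u i) (B i), g x := tsum_fintype _
        _ ≤ _ := by rw [Finset.mul_sum]; exact Finset.sum_le_sum fun i _ => hcyl i
    have hπb : 0 < π * b := mul_pos Real.pi_pos hb0
    refine (ENNReal.mul_le_mul_iff_right (ENNReal.ofReal_pos.2 hπb).ne' ENNReal.ofReal_ne_top).1
      (le_trans (le_of_eq ?_) htot)
    rw [← ENNReal.ofReal_mul hπb.le, ← ENNReal.ofReal_mul (abs_nonneg _)]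
    congr 1
    field_simp
  have ht : Tendsto (fun δ : ℝ => ENNReal.ofReal
      (|det3 M| * (1 - δ) * (2 * Real.arcsin (Real.sqrt (1 / (1 + δ)))) / b))
      (𝓝[>] 0) (𝓝 (ENNReal.ofReal (π * |det3 M| / b))) := by
    refine ENNReal.tendsto_ofReal (tendsto_nhdsWithin_of_tendsto_nhds ?_)
    have h1 : ContinuousAt (fun δ : ℝ => |det3 M| * (1 - δ) *
        (2 * Real.arcsin (Real.sqrt (1 / (1 + δ)))) / b) 0 := by
      refine ((continuousAt_const.mul (by fun_prop)).mul (continuousAt_const.mul ?_)).div_const _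
      exact Real.continuous_arcsin.continuousAt.comp
        (Real.continuous_sqrt.continuousAt.comp (continuousAt_const.div (by fun_prop) (by norm_num)))
    have h2 := h1.tendsto
    simp only [sub_zero, mul_one, add_zero, div_one, Real.sqrt_one, Real.arcsin_one] at h2
    convert h2 using 2
    ring
  refine le_of_tendsto ht ?_
  filter_upwards [Ioo_mem_nhdsGT (show (0:ℝ) < 1 by norm_num)] with δ hδ using key δ hδ

end

end Vale.Agent.P243.SymHalf
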