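import Vale.Agent.P243.SymHalf.Alg
import Mathlib.Analysis.LocallyConvex.Separation
import Mathlib.Analysis.Normed.Module.Convex
import Mathlib.Analysis.Normed.Module.FiniteDimension
import Mathlib.Topology.Order.Compact
import Mathlib.Analysis.Real.Sqrt
import Mathlib.Tactic.FunProp

/-!
A linear image of the ball inside a symmetric body with the largest least shadow, and two
contact normals of it spanning a large parallelogram.
-/

namespace Vale.Agent.P243.SymHalf

open Set Filter Topology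

noncomputable section

section Cont

variable {α : Type*} [TopologicalSpace α]

@[fun_prop]
theorem continuous_dt {f g : α → W3} (hf : Continuous f) (hg : Continuous g) :
    Continuous fun a => dt (f a) (g a) := by
  simp only [dt]; fun_prop

@[fun_prop]
theorem continuous_app {f : α → M3} {g : α → W3} (hf : Continuous f) (hg : Continuous g) :
    Continuous fun a => app (f a) (g a) := by
  refine continuous_pi fun i => ?_
  unfold app; fun_prop

@[fun_prop]
theorem continuous_rap {f : α → W3} {g : α → M3} (hf : Continuous f) (hg : Continuous g) :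
    Continuous fun a => rap (f a) (g a) := by
  refine continuous_pi fun i => ?_
  unfold rap; fun_prop

@[fun_prop]
theorem continuous_det3 {f : α → M3} (hf : Continuous f) : Continuous fun a => det3 (f a) := by
  unfold det3; fun_prop

@[fun_prop]
theorem continuous_outer {f : α → W3} (hf : Continuous f) : Continuous fun a => outer (f a) := by
  refine continuous_pi fun i => continuous_pi fun j => ?_
  unfold outer; fun_prop

@[fun_prop]
theorem continuous_pair {f g : α → M3} (hf : Continuous f) (hg : Continuous g) :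
    Continuous fun a => pair (f a) (g a) := by unfold pair; fun_prop

@[fun_prop]
theorem continuous_mix {f g : α → M3} (hf : Continuous f) (hg : Continuous g) :
    Continuous fun a => mix (f a) (g a) := by
  refine continuous_pi fun i => continuous_pi fun j => ?_
  unfold mix; fun_prop

end Cont

theorem dt_smul_self (c : ℝ) (a : W3) : dt (c • a) (c • a) = c ^ 2 * dt a a := by
  simp [dt]; ring

/-- The unit vectors. -/
def sphere3 : Set W3 := {x | dt x x = 1}

theorem isCompact_sphere3 : IsCompact sphere3 := by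
  refine Metric.isCompact_of_isClosed_isBounded
    (isClosed_eq (by fun_prop) continuous_const) ?_
  rw [Metric.isBounded_iff_subset_closedBall 0]
  refine ⟨1, fun x hx => ?_⟩
  rw [mem_closedBall_zero_iff, pi_norm_le_iff_of_nonneg zero_le_one]
  intro i
  have h : dt x x = 1 := hx
  unfold dt at h
  rw [Real.norm_eq_abs, abs_le]
  constructor <;>
    fin_cases i <;> simp <;> nlinarith [mul_self_nonneg (x 0), mul_self_nonneg (x 1), mul_self_nonneg (x 2)]

theorem sphere3_nonempty : sphere3.Nonempty := ⟨![1, 0, 0], by simp [sphere3, dt]⟩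

/-- The squared operator norm. -/
def bsq (M : M3) : ℝ := sSup ((fun x => dt (app M x) (app M x)) '' sphere3)

theorem continuous_bsq : Continuous bsq :=
  isCompact_sphere3.continuous_sSup (by fun_prop)

theorem le_bsq (M : M3) {x : W3} (hx : dt x x = 1) : dt (app M x) (app M x) ≤ bsq M :=
  le_csSup (isCompact_sphere3.image (by fun_prop)).bddAbove (mem_image_of_mem _ hx)

theorem exists_bsq (M : M3) : ∃ x, dt x x = 1 ∧ dt (app M x) (app M x) = bsq M := by
  obtain ⟨x, hx, hx'⟩ := (isCompact_sphere3.image (f := fun x => dt (app M x) (app M x))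
    (by fun_prop)).sSup_mem (sphere3_nonempty.image _)
  exact ⟨x, hx, hx'⟩

theorem app_le_bsq (M : M3) (x : W3) : dt (app M x) (app M x) ≤ bsq M * dt x x := by
  by_cases hx : x = 0
  · simp [hx, app, dt]
  have hs := dt_self_pos hx
  have hr : Real.sqrt (dt x x) ≠ 0 := (Real.sqrt_pos.2 hs).ne'
  have h := le_bsq M (x := (Real.sqrt (dt x x))⁻¹ • x) (by
    have e2 : ∀ c : ℝ, dt (c • x) (c • x) = c * c * dt x x := fun c => by simp [dt]; ring
    rw [e2, ← mul_inv, Real.mul_self_sqrt hs.le, inv_mul_cancel₀ hs.ne'])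
  rw [app_smul] at h
  simp only [dt, Pi.smul_apply, smul_eq_mul] at h ⊢
  have e := Real.mul_self_sqrt hs.le
  set r := Real.sqrt (dt x x) with hr'
  have e2 : dt (app M x) (app M x) = (r * r) * ((r⁻¹ * app M x 0) * (r⁻¹ * app M x 0) +
      (r⁻¹ * app M x 1) * (r⁻¹ * app M x 1) + (r⁻¹ * app M x 2) * (r⁻¹ * app M x 2)) := by
    unfold dt; field_simp
  unfold dt at e e2 hs
  rw [e2, e, mul_comm (bsq M)]
  exact mul_le_mul_of_nonneg_left h hs.le

/-- Strict negativity survives a small perturbation. -/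
theorem eventually_neg {α : Type*} [TopologicalSpace α] {K : Set α} (hK : IsCompact K)
    {g h k : α → ℝ} (hg : ContinuousOn g K) (hh : ContinuousOn h K) (hk : ContinuousOn k K)
    (hg0 : ∀ x ∈ K, g x ≤ 0) (hh0 : ∀ x ∈ K, g x = 0 → h x < 0) :
    ∀ᶠ t in 𝓝[>] (0 : ℝ), ∀ x ∈ K, g x + t * h x + t ^ 2 * k x < 0 := by
  obtain ⟨H, hH⟩ := hK.bddAbove_image hh
  obtain ⟨L, hL⟩ := hK.bddAbove_image hk
  have hcl : ∀ F : α → ℝ, ContinuousOn F K → ∀ S : Set ℝ, IsClosed S →
      IsCompact {x ∈ K | F x ∈ S} := fun F hF S hS => by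
    obtain ⟨T, hT, hTe⟩ := continuousOn_iff_isClosed.1 hF S hS
    have : {x ∈ K | F x ∈ S} = K ∩ T := by
      rw [inter_comm, ← hTe]; ext x; simp [and_comm]
    rw [this]; exact hK.inter_right hT
  obtain ⟨d, hd, hd'⟩ : ∃ d < 0, ∀ x ∈ K, g x = 0 → h x < d := by
    by_cases hne : {x ∈ K | g x ∈ ({0} : Set ℝ)}.Nonempty
    · obtain ⟨x0, hx0, hmax⟩ := (hcl g hg {0} isClosed_singleton).exists_isMaxOn hne
        (hh.mono fun x hx => hx.1)
      have h0 := hh0 x0 hx0.1 hx0.2
      refine ⟨h x0 / 2, by linarith, fun x hx hx' => ?_⟩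
      have : h x ≤ h x0 := hmax ⟨hx, hx'⟩
      linarith
    · exact ⟨-1, by norm_num, fun x hx hx' => absurd ⟨x, hx, hx'⟩ hne⟩
  have hev : ∀ᶠ t in 𝓝[>] (0 : ℝ), ∀ x ∈ K, d ≤ h x → g x + t * h x + t ^ 2 * k x < 0 := by
    by_cases hne : {x ∈ K | h x ∈ Ici d}.Nonempty
    · obtain ⟨x0, hx0, hmax⟩ := (hcl h hh (Ici d) isClosed_Ici).exists_isMaxOn hne
        (hg.mono fun x hx => hx.1)
      have hneg : g x0 < 0 := (hg0 x0 hx0.1).lt_of_ne fun e => (hd' x0 hx0.1 e).not_ge hx0.2
      have ht : Tendsto (fun t : ℝ => g x0 + t * H + t ^ 2 * L) (𝓝[>] (0 : ℝ)) (𝓝 (g x0)) := by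
        refine tendsto_nhdsWithin_of_tendsto_nhds ?_
        simpa using (show Continuous fun t : ℝ => g x0 + t * H + t ^ 2 * L by fun_prop).tendsto 0
      filter_upwards [ht.eventually (gt_mem_nhds hneg), self_mem_nhdsWithin] with t ht0 ht1 x hx hx'
      have : g x ≤ g x0 := hmax ⟨hx, hx'⟩
      nlinarith [hH (mem_image_of_mem h hx), hL (mem_image_of_mem k hx), sq_nonneg t,
        show (0:ℝ) < t from ht1]
    · exact Eventually.of_forall fun t x hx hx' => absurd ⟨x, hx, hx'⟩ hne
  have hev' : ∀ᶠ t in 𝓝[>] (0 : ℝ), d + t * L < 0 :=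
    (tendsto_nhdsWithin_of_tendsto_nhds (by
      simpa using (show Continuous fun t : ℝ => d + t * L by fun_prop).tendsto 0)).eventually
      (gt_mem_nhds hd)
  filter_upwards [hev, hev', self_mem_nhdsWithin] with t h1 h2 ht x hx
  rcases le_or_gt d (h x) with h' | h'
  · exact h1 x hx h'
  · have ht : (0:ℝ) < t := ht
    nlinarith [hg0 x hx, mul_le_mul_of_nonneg_left (hL (mem_image_of_mem k hx)) (mul_nonneg ht.le ht.le),
      mul_lt_mul_of_pos_left h' ht, mul_neg_of_pos_of_neg ht h2]

variable {C : Set W3}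

/-- The image of the ball under `M` satisfies all the constraints in `C`. -/
def Feasible (C : Set W3) (M : M3) : Prop := ∀ p ∈ C, dt (rap p M) (rap p M) ≤ 1


/-- A feasible matrix maximising the least shadow. -/
theorem exists_maximiser (hC : IsCompact C) {ρ : ℝ} (hρ : 0 < ρ)
    (hball : ∀ p : W3, dt p p ≤ ρ ^ 2 → p ∈ C) :
    ∃ M, Feasible C M ∧ det3 M ≠ 0 ∧ 0 < bsq M ∧
      ∀ N, Feasible C N → |det3 N| * Real.sqrt (bsq M) ≤ |det3 M| * Real.sqrt (bsq N) := by
  obtain ⟨R, hR0, hR⟩ : ∃ R > (0:ℝ), ∀ p ∈ C, dt p p ≤ R := by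
    obtain ⟨R, hR⟩ := hC.bddAbove_image (f := fun p => dt p p) (by fun_prop)
    exact ⟨max R 1, lt_max_of_lt_right one_pos,
      fun p hp => (hR (mem_image_of_mem _ hp)).trans (le_max_left _ _)⟩
  set r : ℝ := (Real.sqrt R)⁻¹ with hr
  have hr0 : 0 < r := inv_pos.2 (Real.sqrt_pos.2 hR0)
  set M0 : M3 := r • idM with hM0
  have hf0 : Feasible C M0 := fun p hp => by
    have e : dt (rap p M0) (rap p M0) = r ^ 2 * dt p p := by
      simp [hM0, rap, dt, idM]; ring
    rw [e, hr, inv_pow, Real.sq_sqrt hR0.le, inv_mul_le_iff₀ hR0, mul_one]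
    exact hR p hp
  have hb0 : bsq M0 = r ^ 2 := by
    obtain ⟨x, hx, hx'⟩ := exists_bsq M0
    rw [← hx']
    have : dt (app M0 x) (app M0 x) = r ^ 2 * dt x x := by
      simp [hM0, app, dt, idM]; ring
    rw [this, hx, mul_one]
  have hd0 : det3 M0 = r ^ 3 := by simp [hM0, det3, idM]; ring
  set A := {M : M3 | Feasible C M ∧ r ^ 2 ≤ bsq M ∧ r ^ 4 * bsq M ≤ det3 M ^ 2} with hA
  have hAc : IsCompact A := by
    refine Metric.isCompact_of_isClosed_isBounded ?_ ?_
    · refine IsClosed.inter ?_ (IsClosed.inter (isClosed_le continuous_const continuous_bsq)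
        (isClosed_le (continuous_const.mul continuous_bsq) ((continuous_det3 continuous_id).pow 2)))
      show IsClosed {M : M3 | Feasible C M}
      rw [show {M : M3 | Feasible C M} = ⋂ p ∈ C, {M : M3 | dt (rap p M) (rap p M) ≤ 1} by
        ext M; simp [Feasible]]
      exact isClosed_biInter fun p _ => isClosed_le (by fun_prop) continuous_const
    · rw [Metric.isBounded_iff_subset_closedBall 0]
      refine ⟨1 / ρ, fun M hM => ?_⟩
      rw [mem_closedBall_zero_iff, pi_norm_le_iff_of_nonneg (by positivity)]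
      intro i
      rw [pi_norm_le_iff_of_nonneg (by positivity)]
      intro j
      set p : W3 := fun k => if k = i then ρ else 0 with hp
      have h := hM.1 p (hball p (by fin_cases i <;> simp [hp, dt, pow_two]))
      have e : rap p M j = ρ * M i j := by fin_cases i <;> simp [hp, rap]
      have h1 : (rap p M j) ^ 2 ≤ 1 := by
        unfold dt at h
        fin_cases j <;> simp only [Fin.reduceFinMk, Fin.zero_eta, Fin.mk_one] <;>
          nlinarith [mul_self_nonneg (rap p M 0), mul_self_nonneg (rap p M 1),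
            mul_self_nonneg (rap p M 2)]
      rw [e, sq_le_one_iff_abs_le_one, abs_mul, abs_of_pos hρ] at h1
      rw [Real.norm_eq_abs, le_div_iff₀ hρ, mul_comm]
      exact h1
  have hM0A : M0 ∈ A := ⟨hf0, hb0.ge, by rw [hb0, hd0]; exact le_of_eq (by ring)⟩
  have hcont : ContinuousOn (fun M => |det3 M| / Real.sqrt (bsq M)) A :=
    (continuous_det3 continuous_id).abs.continuousOn.div (continuous_bsq.sqrt).continuousOn fun M hM =>
      (Real.sqrt_pos.2 (lt_of_lt_of_le (by positivity) hM.2.1)).ne'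
  obtain ⟨M, hM, hmax⟩ := hAc.exists_isMaxOn ⟨M0, hM0A⟩ hcont
  have hbM : 0 < bsq M := lt_of_lt_of_le (by positivity) hM.2.1
  have hdM : det3 M ≠ 0 := fun h => by
    have := hM.2.2
    rw [h] at this
    nlinarith [mul_pos (pow_pos hr0 4) hbM]
  refine ⟨M, hM.1, hdM, hbM, fun N hN => ?_⟩
  by_cases hNA : N ∈ A
  · have hbN : 0 < bsq N := lt_of_lt_of_le (by positivity) hNA.2.1
    have := hmax hNA
    simp only [mem_ofPred_eq] at this
    rwa [div_le_div_iff₀ (Real.sqrt_pos.2 hbN) (Real.sqrt_pos.2 hbM)] at this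
  -- outside `A` the value is below that of the scalar matrix
  have hB0 : 0 ≤ bsq N := by
    obtain ⟨x, -, hx⟩ := exists_bsq N
    exact hx ▸ dt_self_nonneg _
  have h3 := det3_sq_le N (fun x hx => le_bsq N hx)
  have hsmall : det3 N ^ 2 ≤ r ^ 4 * bsq N := by
    by_contra hlt
    rw [not_le] at hlt
    refine hNA ⟨hN, ?_, hlt.le⟩
    by_contra hb
    rw [not_le] at hb
    have h5 : bsq N ^ 2 ≤ (r ^ 2) ^ 2 := pow_le_pow_left₀ hB0 hb.le 2
    nlinarith [mul_le_mul_of_nonneg_right h5 hB0]
  have key : (|det3 N| * Real.sqrt (bsq M)) ^ 2 ≤ (|det3 M| * Real.sqrt (bsq N)) ^ 2 := by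
    rw [mul_pow, mul_pow, sq_abs, sq_abs, Real.sq_sqrt hbM.le, Real.sq_sqrt hB0]
    nlinarith [mul_le_mul_of_nonneg_right hsmall hbM.le, mul_le_mul_of_nonneg_right hM.2.2 hB0]
  exact (pow_le_pow_iff_left₀ (by positivity) (by positivity) two_ne_zero).1 key

/-- A first order improvement contradicts maximality. -/
theorem no_improvement (hC : IsCompact C) {M : M3} (hf : Feasible C M) (hdet : det3 M ≠ 0)
    (hb : 0 < bsq M)
    (hmax : ∀ N, Feasible C N → |det3 N| * Real.sqrt (bsq M) ≤ |det3 M| * Real.sqrt (bsq N))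
    (H : M3) (hH : ∀ i j, H i j = H j i) (μ : ℝ)
    (hU : ∀ p ∈ C, dt (rap p M) (rap p M) = 1 → dt (rap p M) (app H (rap p M)) < 0)
    (hX : ∀ x, dt x x = 1 → dt (app M x) (app M x) = bsq M → dt x (app H x) < μ)
    (hμ : μ < H 0 0 + H 1 1 + H 2 2) : False := by
  set Hm : ℝ → M3 := fun t i j => idM i j + t * H i j with hHm
  set Mt : ℝ → M3 := fun t i => rap (M i) (Hm t) with hMt
  have hrap : ∀ p t, rap p (Mt t) = rap p M + t • app H (rap p M) := fun p t => by
    funext j
    fin_cases j <;> simp [hMt, hHm, rap, app, dt, idM, hH 1 0, hH 2 0, hH 2 1] <;> ring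
  have happ : ∀ x t, app (Mt t) x = app M x + t • app M (app H x) := fun x t => by
    funext j
    simp [hMt, hHm, rap, app, dt, idM]; ring
  have hdett : ∀ t, det3 (Mt t) = det3 M * det3 (Hm t) := fun t => by
    simp [hMt, det3, rap]; ring
  have hfeas : ∀ᶠ t in 𝓝[>] (0 : ℝ), ∀ p ∈ C,
      (dt (rap p M) (rap p M) - 1) + t * (2 * dt (rap p M) (app H (rap p M))) +
        t ^ 2 * dt (app H (rap p M)) (app H (rap p M)) < 0 := by
    refine eventually_neg hC (by fun_prop) (by fun_prop)
      (by fun_prop) (fun p hp => by linarith [hf p hp]) fun p hp h => ?_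
    linarith [hU p hp (by linarith)]
  -- maximal vectors are singular vectors
  have hsing : ∀ x, dt x x = 1 → dt (app M x) (app M x) = bsq M →
      ∀ y, dt (app M x) (app M y) = bsq M * dt x y := by
    intro x hx hmx y
    have key : ∀ s : ℝ, 0 ≤ 2 * s * (bsq M * dt x y - dt (app M x) (app M y)) +
        s ^ 2 * (bsq M * dt y y - dt (app M y) (app M y)) := by
      intro s
      have h := app_le_bsq M (x + s • y)
      rw [app_add, app_smul] at h
      have e1 : ∀ a b : W3, dt (a + s • b) (a + s • b) =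
          dt a a + 2 * s * dt a b + s ^ 2 * dt b b := fun a b => by
        simp [dt]; ring
      rw [e1, e1, hx, hmx] at h
      linarith
    set P := bsq M * dt x y - dt (app M x) (app M y) with hP
    set Q := bsq M * dt y y - dt (app M y) (app M y) with hQ
    have hQ0 : 0 ≤ Q := by linarith [app_le_bsq M y]
    by_contra hne
    have hP0 : P ≠ 0 := fun e => hne (by rw [hP] at e; linarith)
    have h := key (-P / (Q + 1))
    have e : 2 * (-P / (Q + 1)) * P + (-P / (Q + 1)) ^ 2 * Q =
        -(P ^ 2 * (Q + 2)) / (Q + 1) ^ 2 := by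
      field_simp; ring
    rw [e] at h
    have : 0 < P ^ 2 * (Q + 2) / (Q + 1) ^ 2 := by positivity
    rw [neg_div] at h
    linarith
  have hop : ∀ᶠ t in 𝓝[>] (0 : ℝ), ∀ x ∈ sphere3,
      (dt (app M x) (app M x) - bsq M) +
        t * (2 * dt (app M x) (app M (app H x)) - 2 * μ * bsq M) +
        t ^ 2 * dt (app M (app H x)) (app M (app H x)) < 0 := by
    refine eventually_neg isCompact_sphere3 (by fun_prop) (by fun_prop)
      (by fun_prop) (fun x hx => by linarith [le_bsq M hx]) fun x hx h => ?_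
    rw [hsing x hx (by linarith)]
    nlinarith [mul_lt_mul_of_pos_left (hX x hx (by linarith)) hb]
  have hd : ∀ᶠ t in 𝓝[>] (0 : ℝ), 1 + 2 * μ * t < det3 (Hm t) ^ 2 := by
    set a := H 0 0 + H 1 1 + H 2 2 with ha
    set e2 := H 0 0 * H 1 1 - H 0 1 * H 1 0 + H 0 0 * H 2 2 - H 0 2 * H 2 0 + H 1 1 * H 2 2
      - H 1 2 * H 2 1 with he2
    set q : ℝ → ℝ := fun t => 2 * (a + t * e2 + t ^ 2 * det3 H) +
      t * (a + t * e2 + t ^ 2 * det3 H) ^ 2 - 2 * μ with hq
    have hexp : ∀ t, det3 (Hm t) ^ 2 = 1 + 2 * μ * t + t * q t := fun t => by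
      simp [hHm, hq, ha, he2, det3, idM]; ring
    have hq0 : 0 < q 0 := by simp [hq]; linarith
    have hev := ((show Continuous q by fun_prop).tendsto 0).eventually (lt_mem_nhds hq0)
    filter_upwards [hev.filter_mono nhdsWithin_le_nhds, self_mem_nhdsWithin] with t ht ht0
    rw [hexp t]
    nlinarith [mul_pos (show (0:ℝ) < t from ht0) ht]
  obtain ⟨t, ht1, ht2, ht3⟩ := (hfeas.and (hop.and hd)).exists
  have e1 : ∀ a b : W3, dt (a + t • b) (a + t • b) =
      dt a a + 2 * t * dt a b + t ^ 2 * dt b b := fun a b => by simp [dt]; ring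
  have hft : Feasible C (Mt t) := fun p hp => by
    rw [hrap, e1]
    linarith [ht1 p hp]
  obtain ⟨x, hx, hxm⟩ := exists_bsq (Mt t)
  have hbt : bsq (Mt t) < bsq M * (1 + 2 * μ * t) := by
    rw [← hxm, happ, e1]
    linarith [ht2 x hx]
  have hbt0 : 0 ≤ bsq (Mt t) := hxm ▸ dt_self_nonneg _
  have h := pow_le_pow_left₀ (by positivity) (hmax _ hft) 2
  rw [mul_pow, mul_pow, sq_abs, sq_abs, Real.sq_sqrt hb.le, Real.sq_sqrt hbt0, hdett, mul_pow] at h
  have hdd : 0 < det3 M ^ 2 := by positivity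
  nlinarith [mul_lt_mul_of_pos_left hbt hdd, mul_lt_mul_of_pos_left ht3 (mul_pos hdd hb)]

theorem continuous_gram_pair (M : M3) : Continuous fun A : M3 => pair (gram M) (mix A A) := by
  fun_prop

/-- Separation of the identity gives a symmetric test matrix. -/
theorem separation {U X : Set W3} {Φ : M3 × M3 →L[ℝ] M3}
    (hΦ : ∀ A B, Φ (A, B) = (2 : ℝ) • A + B)
    (hZc : IsCompact (closure (convexHull ℝ ((fun q : W3 × W3 => (outer q.1, outer q.2)) '' (U ×ˢ X)))))
    (hmem : idM ∉ Φ '' closure (convexHull ℝ ((fun q : W3 × W3 => (outer q.1, outer q.2)) '' (U ×ˢ X)))) :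
    ∃ (H : M3) (s : ℝ), (∀ i j, H i j = H j i) ∧ s < H 0 0 + H 1 1 + H 2 2 ∧
      ∀ u ∈ U, ∀ x ∈ X, 2 * dt u (app H u) + dt x (app H x) < s := by
  set Z := closure (convexHull ℝ ((fun q : W3 × W3 => (outer q.1, outer q.2)) '' (U ×ˢ X))) with hZ
  have hlin : IsLinearMap ℝ (Φ : M3 × M3 → M3) := ⟨fun x y => map_add Φ x y, fun c x => map_smul Φ c x⟩
  have hconv : Convex ℝ ((Φ : M3 × M3 → M3) '' Z) := (convex_convexHull ℝ _).closure.is_linear_image hlin
  obtain ⟨f, s, hf1, hs⟩ :=
    geometric_hahn_banach_closed_point hconv (hZc.image Φ.continuous).isClosed hmem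
  set E : Fin 3 → Fin 3 → M3 := fun i j k l => if k = i ∧ l = j then 1 else 0 with hE
  set H : M3 := fun i j => (f (E i j) + f (E j i)) / 2 with hH
  have hexp : ∀ A : M3, f A = ∑ i, ∑ j, A i j * f (E i j) := by
    intro A
    have eA : A = ∑ i, ∑ j, A i j • E i j := by
      funext k l
      simp only [hE, Finset.sum_apply, Fin.sum_univ_three]
      fin_cases k <;> fin_cases l <;> simp
    conv_lhs => rw [eA]
    simp [map_sum, map_smul]
  have hquad : ∀ x, f (outer x) = dt x (app H x) := fun x => by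
    rw [hexp]; simp [Fin.sum_univ_three, outer, dt, app, hH]; ring
  have htr : f idM = H 0 0 + H 1 1 + H 2 2 := by
    rw [hexp]; simp [Fin.sum_univ_three, idM, hH]
  refine ⟨H, s, fun i j => by simp [hH, add_comm], htr ▸ hs, fun u hu x hx => ?_⟩
  have hmemP : (outer u, outer x) ∈ Z :=
    subset_closure (subset_convexHull ℝ _ ⟨(u, x), mk_mem_prod hu hx, rfl⟩)
  have h := hf1 (Φ (outer u, outer x)) (mem_image_of_mem _ hmemP)
  rw [hΦ, map_add, map_smul, hquad, hquad, smul_eq_mul] at h
  exact h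

/-- If the identity is represented, some pair of contact vectors has a large cross product. -/
theorem pair_of_rep (M : M3) {U X : Set W3} (hUc : IsCompact U) (hUne : U.Nonempty)
    (hX : ∀ x ∈ X, dt x x = 1 ∧ dt (app M x) (app M x) = bsq M) {A L : M3}
    (hAL : (A, L) ∈ closure (convexHull ℝ ((fun q : W3 × W3 => (outer q.1, outer q.2)) '' (U ×ˢ X))))
    (he' : ∀ i j, 2 * A i j + L i j = idM i j) :
    ∃ u ∈ U, ∃ v ∈ U, bsq M ≤ 2 * dt (app M (cr u v)) (app M (cr u v)) := by
  set P := (fun q : W3 × W3 => (outer q.1, outer q.2)) '' (U ×ˢ X) with hPdef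
  obtain ⟨w, hw, hwmax⟩ := (hUc.prod hUc).exists_isMaxOn (hUne.prod hUne)
    (f := fun w : W3 × W3 => pair (gram M) (mix (outer w.1) (outer w.2)))
    (by fun_prop)
  set S := pair (gram M) (mix (outer w.1) (outer w.2)) with hS
  have hQ1 : ∀ u ∈ U, ∀ A ∈ convexHull ℝ (outer '' U), pair (gram M) (mix (outer u) A) ≤ S := by
    intro u hu
    refine convexHull_min ?_ ?_
    · rintro _ ⟨v, hv, rfl⟩
      exact hwmax (mk_mem_prod hu hv)
    · intro B hB B' hB' a b ha hb' hab
      show pair (gram M) (mix (outer u) (a • B + b • B')) ≤ S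
      rw [mix_linear_right]
      calc a * pair (gram M) (mix (outer u) B) + b * pair (gram M) (mix (outer u) B')
          ≤ a * S + b * S := add_le_add (mul_le_mul_of_nonneg_left hB ha) (mul_le_mul_of_nonneg_left hB' hb')
        _ = S := by rw [← add_mul, hab, one_mul]
  have hQ2 : ∀ A ∈ convexHull ℝ (outer '' U), ∀ B ∈ convexHull ℝ (outer '' U),
      pair (gram M) (mix A B) ≤ S := by
    intro A hA B hB
    revert A
    refine convexHull_min (t := {A | pair (gram M) (mix A B) ≤ S}) ?_ ?_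
    · rintro _ ⟨u, hu, rfl⟩
      exact hQ1 u hu B hB
    · intro A hA A' hA' a b ha hb' hab
      show pair (gram M) (mix (a • A + b • A') B) ≤ S
      rw [mix_linear_left]
      calc a * pair (gram M) (mix A B) + b * pair (gram M) (mix A' B)
          ≤ a * S + b * S := add_le_add (mul_le_mul_of_nonneg_left hA ha) (mul_le_mul_of_nonneg_left hA' hb')
        _ = S := by rw [← add_mul, hab, one_mul]
  have hL1 : ∀ x ∈ X, ∀ B ∈ convexHull ℝ (outer '' X),
      0 ≤ pair (gram M) (mix (outer x) B) := by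
    intro x hx
    refine convexHull_min ?_ ?_
    · rintro _ ⟨y, hy, rfl⟩
      show 0 ≤ pair (gram M) (mix (outer x) (outer y))
      rw [← quad_cr]
      exact dt_self_nonneg _
    · intro B hB B' hB' a b ha hb' hab
      show 0 ≤ pair (gram M) (mix (outer x) (a • B + b • B'))
      rw [mix_linear_right]
      exact add_nonneg (mul_nonneg ha hB) (mul_nonneg hb' hB')
  have hL2 : ∀ B ∈ convexHull ℝ (outer '' X), ∀ B' ∈ convexHull ℝ (outer '' X),
      0 ≤ pair (gram M) (mix B B') := by
    intro B hB B' hB'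
    revert B
    refine convexHull_min (t := {B | 0 ≤ pair (gram M) (mix B B')}) ?_ ?_
    · rintro _ ⟨x, hx, rfl⟩
      exact hL1 x hx B' hB'
    · intro A hA A' hA' a b ha hb' hab
      show 0 ≤ pair (gram M) (mix (a • A + b • A') B')
      rw [mix_linear_left]
      exact add_nonneg (mul_nonneg ha hA) (mul_nonneg hb' hA')
  have hXeq : ∀ B ∈ convexHull ℝ (outer '' X), pair (gram M) B = bsq M ∧
      B 0 0 + B 1 1 + B 2 2 = 1 ∧ ∀ i j, B i j = B j i := by
    refine convexHull_min ?_ ?_
    · rintro _ ⟨x, hx, rfl⟩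
      refine ⟨by rw [← quad_self]; exact (hX x hx).2, ?_, fun i j => by simp [outer, mul_comm]⟩
      have h1 : dt x x = 1 := (hX x hx).1
      simpa [outer, dt] using h1
    · intro A hA A' hA' a b ha hb' hab
      refine ⟨?_, ?_, fun i j => ?_⟩
      · rw [pair_linear, hA.1, hA'.1, ← add_mul, hab, one_mul]
      · simp only [Pi.add_apply, Pi.smul_apply, smul_eq_mul]
        linear_combination a * hA.2.1 + b * hA'.2.1 + hab
      · simp only [Pi.add_apply, Pi.smul_apply, smul_eq_mul]
        rw [hA.2.2 i j, hA'.2.2 i j]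
  set T := {q : M3 × M3 | pair (gram M) (mix q.1 q.1) ≤ S ∧ 0 ≤ pair (gram M) (mix q.2 q.2) ∧
    pair (gram M) q.2 = bsq M ∧ q.2 0 0 + q.2 1 1 + q.2 2 2 = 1 ∧ ∀ i j, q.2 i j = q.2 j i} with hT
  have hTc : IsClosed T := by
    refine IsClosed.inter (isClosed_le ((continuous_gram_pair M).comp continuous_fst) continuous_const) ?_
    refine IsClosed.inter (isClosed_le continuous_const ((continuous_gram_pair M).comp continuous_snd)) ?_
    refine IsClosed.inter (isClosed_eq (by fun_prop) continuous_const) ?_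
    refine IsClosed.inter (isClosed_eq (by fun_prop) continuous_const) ?_
    show IsClosed {q : M3 × M3 | ∀ i j, q.2 i j = q.2 j i}
    rw [show {q : M3 × M3 | ∀ i j, q.2 i j = q.2 j i} =
      ⋂ i, ⋂ j, {q : M3 × M3 | q.2 i j = q.2 j i} by ext q; simp]
    exact isClosed_iInter fun i => isClosed_iInter fun j => isClosed_eq (by fun_prop) (by fun_prop)
  have hsub : convexHull ℝ P ⊆ T := by
    intro q hq
    have h12 : q ∈ convexHull ℝ (outer '' U) ×ˢ convexHull ℝ (outer '' X) := by
      refine convexHull_min ?_ ((convex_convexHull ℝ _).prod (convex_convexHull ℝ _)) hq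
      rintro _ ⟨w, hw, rfl⟩
      exact ⟨subset_convexHull ℝ _ (mem_image_of_mem _ hw.1),
        subset_convexHull ℝ _ (mem_image_of_mem _ hw.2)⟩
    obtain ⟨e1, e2, e3⟩ := hXeq _ h12.2
    exact ⟨hQ2 _ h12.1 _ h12.1, hL2 _ h12.2 _ h12.2, e1, e2, e3⟩
  obtain ⟨hS', hL0, hLb, hLt, hLs⟩ := closure_minimal hsub hTc hAL
  have hid := mix_identity M A L he' hLs hLt
  refine ⟨w.1, hw.1, w.2, hw.2, ?_⟩
  rw [quad_cr, ← hS]
  linarith

/-- Two contact normals with a large cross product. -/
theorem exists_pair (hC : IsCompact C) {ρ : ℝ} (hρ : 0 < ρ)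
    (hball : ∀ p : W3, dt p p ≤ ρ ^ 2 → p ∈ C) :
    ∃ M, Feasible C M ∧ det3 M ≠ 0 ∧ 0 < bsq M ∧
      ∃ p ∈ C, ∃ q ∈ C, bsq M ≤ 2 * (det3 M ^ 2 * dt (cr p q) (cr p q)) := by
  obtain ⟨M, hf, hdet, hb, hmax⟩ := exists_maximiser hC hρ hball
  refine ⟨M, hf, hdet, hb, ?_⟩
  set U := (fun p => rap p M) '' {p ∈ C | dt (rap p M) (rap p M) = 1} with hUdef
  have hUc : IsCompact U :=
    (hC.inter_right (isClosed_eq (by fun_prop) continuous_const)).image
      (by fun_prop)
  set X := {x ∈ sphere3 | dt (app M x) (app M x) = bsq M} with hXdef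
  have hXc : IsCompact X := isCompact_sphere3.inter_right
    (isClosed_eq (by fun_prop) continuous_const)
  have hXne : X.Nonempty := by
    obtain ⟨x, hx, hx'⟩ := exists_bsq M
    exact ⟨x, hx, hx'⟩
  have hUne : U.Nonempty := by
    by_contra hne
    refine no_improvement hC hf hdet hb hmax idM (fun i j => by simp [idM, eq_comm]) 2
      (fun p hp h => absurd ⟨rap p M, p, ⟨hp, h⟩, rfl⟩ hne) (fun x hx _ => ?_) (by simp [idM]; norm_num)
    have : dt x (app idM x) = dt x x := by simp [dt, app, idM]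
    linarith
  set F : W3 × W3 → M3 × M3 := fun q => (outer q.1, outer q.2) with hFdef
  set P := F '' (U ×ˢ X) with hPdef
  have hPb : Bornology.IsBounded (convexHull ℝ P) :=
    isBounded_convexHull.2 ((hUc.prod hXc).image (by fun_prop)).isBounded
  set Z := closure (convexHull ℝ P) with hZdef
  have hZc : IsCompact Z := hPb.isCompact_closure
  set Φ : M3 × M3 →L[ℝ] M3 :=
    (2 : ℝ) • ContinuousLinearMap.fst ℝ M3 M3 + ContinuousLinearMap.snd ℝ M3 M3 with hΦ
  by_cases hmem : idM ∈ Φ '' Z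
  · obtain ⟨⟨A, L⟩, hAL, he⟩ := hmem
    obtain ⟨_, ⟨p, ⟨hp, -⟩, rfl⟩, _, ⟨q, ⟨hq, -⟩, rfl⟩, hle⟩ :=
      pair_of_rep M hUc hUne (fun x hx => hx) hAL (fun i j => by
        have := congrFun (congrFun he i) j
        simpa [hΦ] using this)
    refine ⟨p, hp, q, hq, ?_⟩
    rwa [app_cr, dt_smul_self] at hle
  · exfalso
    obtain ⟨H, s, hHs, hs, hpts⟩ := separation (U := U) (X := X) (Φ := Φ)
      (fun A B => by simp [hΦ]) hZc hmem
    obtain ⟨u0, hu0, humax⟩ := hUc.exists_isMaxOn hUne (f := fun u => dt u (app H u))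
      (by fun_prop)
    obtain ⟨x0, hx0, hxmax⟩ := hXc.exists_isMaxOn hXne (f := fun x => dt x (app H x))
      (by fun_prop)
    have h0 := hpts u0 hu0 x0 hx0
    set a := dt u0 (app H u0) with ha
    set c := dt x0 (app H x0) with hc
    set δ := (H 0 0 + H 1 1 + H 2 2 - 2 * a - c) / 8 with hδ
    have hδ0 : 0 < δ := by rw [hδ]; linarith
    set ε := a + δ with hε
    set H' : M3 := fun i j => H i j - ε * idM i j with hH'
    have hq' : ∀ x, dt x (app H' x) = dt x (app H x) - ε * dt x x := fun x => by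
      simp [hH', dt, app, idM]; ring
    refine no_improvement hC hf hdet hb hmax H'
      (fun i j => by simp [hH', hHs i j, idM, eq_comm]) (c + δ - ε) (fun p hp h1 => ?_)
      (fun x hx hx' => ?_) ?_
    · have h : dt (rap p M) (app H (rap p M)) ≤ a := humax ⟨p, ⟨hp, h1⟩, rfl⟩
      rw [hq', h1]
      linarith
    · have h : dt x (app H x) ≤ c := hxmax ⟨hx, hx'⟩
      rw [hq', hx]
      linarith
    · have : H' 0 0 + H' 1 1 + H' 2 2 = H 0 0 + H 1 1 + H 2 2 - 3 * ε := by simp [hH', idM]; ring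
      rw [this]
      linarith

end

end Vale.Agent.P243.SymHalf
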