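import Vale.Agent.P243.SymHalf.Ball
import Vale.Agent.P243.Sym.Main
import Mathlib.Analysis.LocallyConvex.Separation

/-!
Bang's half-area bound for centrally symmetric bodies.
-/

namespace Vale.Agent.P243.SymHalf

open MeasureTheory Set Filter Topology Gap
open scoped ENNReal InnerProductSpace Real

noncomputable section

theorem inner_dt (p x : R3) : ⟪p, x⟫_ℝ = dt (WithLp.ofLp p) (WithLp.ofLp x) := by
  simp [PiLp.inner_apply, Fin.sum_univ_three, dt]; ring

theorem dt_cauchy (a b : W3) : dt a b ^ 2 ≤ dt a a * dt b b := by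
  have := dt_self_nonneg (cr a b)
  rw [cr_self_le] at this
  linarith

theorem length_slice_le {α β z : ℝ} (hβ : β ≠ 0) :
    volume {r : ℝ | |α * z + β * r| ≤ 1} ≤ ENNReal.ofReal (2 / |β|) := by
  have hsub : {r : ℝ | |α * z + β * r| ≤ 1} ⊆
      Icc (-(α * z) / β - 1 / |β|) (-(α * z) / β + 1 / |β|) := by
    intro r hr
    have h : |r - -(α * z) / β| ≤ 1 / |β| := by
      rw [le_div_iff₀ (abs_pos.2 hβ), ← abs_mul]
      have e : (r - -(α * z) / β) * β = α * z + β * r := by
        rw [sub_mul, div_mul_cancel₀ _ hβ]; ring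
      rw [e]; exact hr
    rw [abs_le] at h
    exact ⟨by linarith [h.1], by linarith [h.2]⟩
  refine (measure_mono hsub).trans (le_of_eq ?_)
  rw [Real.volume_Icc]
  congr 1; ring

theorem area_le_of_slabs (c : OrthonormalBasis (Fin 3) ℝ R3) {S : Set R3} (hS : MeasurableSet S)
    {n α β : ℝ} (hn : 0 < n) (hβ : β ≠ 0)
    (h : ∀ r z : ℝ, r • c 0 + z • c 2 ∈ S → |n * z| ≤ 1 ∧ |α * z + β * r| ≤ 1) :
    planeArea (c 1) S ≤ ENNReal.ofReal (4 / (n * |β|)) := by
  rw [planeArea_eq_lintegral c hS]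
  calc ∫⁻ z : ℝ, volume {r : ℝ | r • c 0 + z • c 2 ∈ S}
      ≤ ∫⁻ z : ℝ, (Icc (-(1 / n)) (1 / n)).indicator (fun _ => ENNReal.ofReal (2 / |β|)) z := by
        refine lintegral_mono fun z => ?_
        by_cases hz : z ∈ Icc (-(1 / n)) (1 / n)
        · rw [indicator_of_mem hz]
          exact (measure_mono fun r hr => (h r z hr).2).trans (length_slice_le hβ)
        · rw [indicator_of_notMem hz]
          refine le_of_eq (measure_mono_null (fun r hr => ?_) measure_empty)
          refine (hz ?_).elim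
          have := (h r z hr).1
          rw [abs_mul, abs_of_pos hn, ← le_div_iff₀' hn, abs_le] at this
          exact this
    _ = _ := by
        rw [lintegral_indicator measurableSet_Icc, setLIntegral_const, Real.volume_Icc,
          ← ENNReal.ofReal_mul (by positivity)]
        congr 1
        field_simp
        ring

/-- The least shadow of a body lying in two slabs. -/
theorem minProjArea_le_slabs {K : Set R3} (hKc : IsCompact K) {p q : R3}
    (hp : ∀ x ∈ K, |⟪p, x⟫_ℝ| ≤ 1) (hq : ∀ x ∈ K, |⟪q, x⟫_ℝ| ≤ 1)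
    (hN : 0 < dt (cr (WithLp.ofLp p) (WithLp.ofLp q)) (cr (WithLp.ofLp p) (WithLp.ofLp q))) :
    minProjArea K ≤ ENNReal.ofReal
      (4 / Real.sqrt (dt (cr (WithLp.ofLp p) (WithLp.ofLp q)) (cr (WithLp.ofLp p) (WithLp.ofLp q)))) := by
  set p' := WithLp.ofLp p with hp'
  set q' := WithLp.ofLp q with hq'
  set w : R3 := WithLp.toLp 2 (cr p' q') with hw
  have hw0 : w ≠ 0 := fun e => by
    have : cr p' q' = 0 := by simpa [hw] using congrArg WithLp.ofLp e
    rw [this] at hN; simp [dt] at hN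
  have hpn : p ≠ 0 := fun e => by
    rw [hp', e] at hN; simp [dt, cr] at hN
  have hpw : ⟪p, w⟫_ℝ = 0 := by
    rw [inner_dt]; simp [hw, ← hp', dt, cr]; ring
  have hqw : ⟪q, w⟫_ℝ = 0 := by
    rw [inner_dt]; simp [hw, ← hq', dt, cr]; ring
  obtain ⟨c, hc1, hc2⟩ := exists_frame (‖w‖⁻¹ • w) (‖p‖⁻¹ • p) (norm_smul_inv_norm hw0)
    (norm_smul_inv_norm hpn) (by
      rw [real_inner_smul_left, real_inner_smul_right, real_inner_comm p w, hpw]; ring)
  set n := ‖p‖ with hn
  have hn0 : 0 < n := norm_pos_iff.2 hpn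
  set α := ⟪q, c 2⟫_ℝ with hα
  set β := ⟪q, c 0⟫_ℝ with hβ
  have hp1 : ⟪p, c 1⟫_ℝ = 0 := by rw [hc1, real_inner_smul_right, hpw, mul_zero]
  have hq1 : ⟪q, c 1⟫_ℝ = 0 := by rw [hc1, real_inner_smul_right, hqw, mul_zero]
  have hpc : p = n • c 2 := by
    rw [hc2, smul_smul, mul_inv_cancel₀ hn0.ne', one_smul]
  have ho := orthonormal_iff_ite.1 c.orthonormal
  have hqn : ‖q‖ ^ 2 = α ^ 2 + β ^ 2 := by
    rw [← c.sum_sq_inner_right q, Fin.sum_univ_three]
    rw [real_inner_comm q (c 0), real_inner_comm q (c 1), real_inner_comm q (c 2), hq1]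
    ring
  have hcross : dt (cr p' q') (cr p' q') = (n * β) ^ 2 := by
    rw [cr_self_le, hp', hq', ← norm_sq_dt, ← norm_sq_dt, ← inner_dt, hqn, ← hn]
    have : ⟪p, q⟫_ℝ = n * α := by
      rw [hpc, real_inner_smul_left, hα, real_inner_comm q (c 2)]
    rw [this]; ring
  have hβ0 : β ≠ 0 := fun e => by rw [hcross, e] at hN; simp at hN
  rw [hcross, Real.sqrt_sq_eq_abs, abs_mul, abs_of_pos hn0]
  refine (iInf₂_le (c 1) (c.orthonormal.1 1)).trans
    (area_le_of_slabs c (hKc.image (continuous_planeProj _)).isClosed.measurableSet (α := α) hn0 hβ0 ?_)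
  rintro r z ⟨x, hx, hxe⟩
  have e : ∀ v : R3, ⟪v, c 1⟫_ℝ = 0 → ⟪v, x⟫_ℝ = r * ⟪v, c 0⟫_ℝ + z * ⟪v, c 2⟫_ℝ := fun v hv => by
    have : ⟪v, planeProj (c 1) x⟫_ℝ = ⟪v, x⟫_ℝ := by
      simp [planeProj, inner_sub_right, real_inner_smul_right, hv]
    rw [← this, hxe, inner_add_right, real_inner_smul_right, real_inner_smul_right]
  have h1 := hp x hx
  have h2 := hq x hx
  rw [e p hp1] at h1
  rw [e q hq1] at h2
  constructor
  · rw [hpc, real_inner_smul_left, real_inner_smul_left, ho, ho, if_neg (by decide), if_pos rfl] at h1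
    convert h1 using 2; ring
  · convert h2 using 2
    rw [← hα, ← hβ]; ring

/-- The half-area bound for a body symmetric about the origin. -/
theorem area_origin (m : ℕ) (K : Set R3) (hK : Convex ℝ K) (hKc : IsCompact K)
    (hKi : (interior K).Nonempty) (hsym : ∀ x ∈ K, -x ∈ K) (u : Fin m → R3)
    (hu : ∀ i, ‖u i‖ = 1) (B : Fin m → Set R3) (hB : ∀ i, MeasurableSet (B i))
    (hBp : ∀ i, ∀ b ∈ B i, ⟪u i, b⟫_ℝ = 0) (hcov : K ⊆ ⋃ i, cylinder (u i) (B i)) :
    ENNReal.ofReal (π / (4 * Real.sqrt 2)) * minProjArea K ≤ ∑ i, planeArea (u i) (B i) := by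
  have h0 : (0 : R3) ∈ interior K := by
    obtain ⟨x, hx⟩ := hKi
    have h := hK.combo_interior_self_mem_interior hx (hsym x (interior_subset hx))
      (by norm_num : (0:ℝ) < 1/2) (by norm_num : (0:ℝ) ≤ 1/2) (by norm_num)
    rwa [show (1/2:ℝ) • x + (1/2:ℝ) • -x = 0 by module] at h
  have h0K : (0 : R3) ∈ K := interior_subset h0
  obtain ⟨r0, hr0, hball⟩ := Metric.mem_nhds_iff.1 (mem_interior_iff_mem_nhds.1 h0)
  obtain ⟨R', hR'⟩ := hKc.isBounded.exists_norm_le
  set R := max R' 1 with hR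
  have hR0 : 0 < R := lt_max_of_lt_right one_pos
  set C : Set W3 := {p | ∀ x ∈ K, dt p (WithLp.ofLp x) ≤ 1} with hC
  have hCsym : ∀ p ∈ C, ∀ x ∈ K, |⟪(WithLp.toLp 2 p : R3), x⟫_ℝ| ≤ 1 := by
    intro p hp x hx
    rw [abs_le, inner_dt]
    have h1 := hp x hx
    have h2 := hp (-x) (hsym x hx)
    have e : dt p (WithLp.ofLp (-x)) = -dt p (WithLp.ofLp x) := by simp [dt]; ring
    rw [e] at h2
    exact ⟨by simpa using by linarith, by simpa using h1⟩
  have hCball : ∀ p : W3, dt p p ≤ (1 / R) ^ 2 → p ∈ C := by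
    intro p hp x hx
    have hx' : ‖x‖ ≤ R := (hR' x hx).trans (le_max_left _ _)
    have h := dt_cauchy p (WithLp.ofLp x)
    rw [← norm_sq_dt x] at h
    have : dt p (WithLp.ofLp x) ^ 2 ≤ 1 := by
      refine h.trans ((mul_le_mul hp (pow_le_pow_left₀ (norm_nonneg _) hx' 2) (sq_nonneg _)
        (sq_nonneg _)).trans (le_of_eq ?_))
      field_simp
    exact (abs_le.1 ((sq_le_one_iff_abs_le_one _).1 this)).2
  have hCc : IsCompact C := by
    refine Metric.isCompact_of_isClosed_isBounded ?_ ?_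
    · rw [show C = ⋂ x ∈ K, {p : W3 | dt p (WithLp.ofLp x) ≤ 1} by ext p; simp [hC]]
      exact isClosed_biInter fun x _ => isClosed_le (by fun_prop) continuous_const
    · rw [Metric.isBounded_iff_subset_closedBall 0]
      refine ⟨2 / r0, fun p hp => ?_⟩
      rw [mem_closedBall_zero_iff, pi_norm_le_iff_of_nonneg (by positivity)]
      intro i
      set y : R3 := EuclideanSpace.single i (r0 / 2) with hy
      have hyK : y ∈ K := hball (by simp [hy, abs_of_pos hr0]; linarith)
      have h := hCsym p hp y hyK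
      rw [hy, EuclideanSpace.inner_single_right] at h
      simp [abs_mul] at h
      rw [abs_of_pos (half_pos hr0)] at h
      rw [Real.norm_eq_abs, le_div_iff₀ hr0]
      nlinarith
  obtain ⟨M, hf, hdet, hb, p, hp, q, hq, hle⟩ := exists_pair hCc (one_div_pos.2 hR0) hCball
  have hEK : ∀ z : R3, ‖z‖ ≤ 1 → lin M z ∈ K := by
    intro z hz
    by_contra hnot
    obtain ⟨f, s, hf1, hs⟩ := geometric_hahn_banach_closed_point hK hKc.isClosed hnot
    have hs0 : 0 < s := by simpa using hf1 0 h0K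
    set a : R3 := (InnerProductSpace.toDual ℝ R3).symm f with ha
    set p' : W3 := WithLp.ofLp (s⁻¹ • a) with hp'
    have hval : ∀ x : R3, dt p' (WithLp.ofLp x) = f x / s := fun x => by
      rw [hp', ← inner_dt, real_inner_smul_left, ha, InnerProductSpace.toDual_symm_apply]
      ring
    have hpC : p' ∈ C := fun x hx => by
      rw [hval, div_le_one hs0]; exact (hf1 x hx).le
    have h1 := hf p' hpC
    have h2 : 1 < dt p' (WithLp.ofLp (lin M z)) := by rw [hval, lt_div_iff₀ hs0, one_mul]; exact hs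
    rw [lin_apply, dt_app] at h2
    have h3 := dt_cauchy (rap p' M) (WithLp.ofLp z)
    have h4 : dt (WithLp.ofLp z) (WithLp.ofLp z) ≤ 1 := by
      rw [← norm_sq_dt]; exact pow_le_one₀ (norm_nonneg _) hz
    nlinarith [mul_le_mul h1 h4 (dt_self_nonneg _) zero_le_one]
  have hE := ellipsoid_bound M hdet u hu B hB hBp fun z hz => hcov (hEK z hz)
  set N := dt (cr p q) (cr p q) with hNdef
  have hN : 0 < N := by
    refine (dt_self_nonneg _).lt_of_ne' fun e => ?_
    rw [hNdef, e] at hle; linarith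
  have hA := minProjArea_le_slabs hKc (p := WithLp.toLp 2 p) (q := WithLp.toLp 2 q)
    (hCsym p hp) (hCsym q hq) hN
  refine le_trans ?_ hE
  refine (mul_le_mul_right hA _).trans ?_
  rw [← ENNReal.ofReal_mul (by positivity)]
  refine ENNReal.ofReal_le_ofReal ?_
  have hs2 : 0 < Real.sqrt 2 := by positivity
  have hsb : 0 < Real.sqrt (bsq M) := Real.sqrt_pos.2 hb
  have hsN : 0 < Real.sqrt N := Real.sqrt_pos.2 hN
  have key : Real.sqrt (bsq M) ≤ Real.sqrt 2 * (|det3 M| * Real.sqrt N) := by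
    refine (Real.sqrt_le_sqrt hle).trans (le_of_eq ?_)
    rw [Real.sqrt_mul zero_le_two, Real.sqrt_mul (sq_nonneg _), Real.sqrt_sq_eq_abs]
  show π / (4 * Real.sqrt 2) * (4 / Real.sqrt N) ≤ _
  rw [div_mul_div_comm, div_le_div_iff₀ (by positivity) hsb]
  nlinarith [mul_le_mul_of_nonneg_left key Real.pi_pos.le]

/-- The half-area bound for every centre of symmetry. -/
theorem area_symmetric (m : ℕ) (K : Set R3) (hK : Convex ℝ K) (hKc : IsCompact K)
    (hKi : (interior K).Nonempty) (a : R3) (hsym : ∀ x ∈ K, (2 : ℝ) • a - x ∈ K) (u : Fin m → R3)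
    (hu : ∀ i, ‖u i‖ = 1) (B : Fin m → Set R3) (hB : ∀ i, MeasurableSet (B i))
    (hBp : ∀ i, ∀ b ∈ B i, ⟪u i, b⟫_ℝ = 0) (hcov : K ⊆ ⋃ i, cylinder (u i) (B i)) :
    ENNReal.ofReal (π / (4 * Real.sqrt 2)) * minProjArea K ≤ ∑ i, planeArea (u i) (B i) := by
  set K' := (fun x => x + a) ⁻¹' K with hK'
  set B' := fun i => (fun y => y + planeProj (u i) a) ⁻¹' B i with hB'
  have hadd : ∀ v x, planeProj v (x + a) = planeProj v x + planeProj v a := fun v x => by
    simp only [planeProj, inner_add_right]; module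
  have hB'p : ∀ i, ∀ b ∈ B' i, ⟪u i, b⟫_ℝ = 0 := fun i b hb => by
    have h := hBp i _ hb
    rwa [inner_add_right, inner_planeProj (hu i), add_zero] at h
  have hB'm : ∀ i, MeasurableSet (B' i) := fun i => (measurable_add_const _) (hB i)
  have hcov' : K' ⊆ ⋃ i, cylinder (u i) (B' i) := fun x hx => by
    obtain ⟨i, hi⟩ := mem_iUnion.1 (hcov hx)
    rw [cylinder_eq (hu i) (hBp i), mem_preimage, hadd] at hi
    refine mem_iUnion.2 ⟨i, ?_⟩
    rw [cylinder_eq (hu i) (hB'p i)]
    exact hi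
  have hmin : minProjArea K = minProjArea K' := by
    unfold minProjArea
    refine iInf_congr fun v => iInf_congr fun hv => ?_
    rw [← planeArea_translate v _ (inner_planeProj hv a) (planeProj v '' K)]
    congr 1
    ext y
    constructor
    · rintro ⟨x, hx, he⟩
      refine ⟨x - a, by simpa [hK'] using hx, ?_⟩
      have h := hadd v (x - a)
      rw [sub_add_cancel, he] at h
      exact (add_right_cancel h).symm
    · rintro ⟨x, hx, rfl⟩
      exact ⟨x + a, hx, hadd v x⟩
  have hBe : ∀ i, planeArea (u i) (B' i) = planeArea (u i) (B i) := fun i =>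
    planeArea_translate (u i) _ (inner_planeProj (hu i) a) (B i)
  simp only [hmin, ← hBe]
  refine area_origin m K' (hK.translate_preimage_left a)
    ((Homeomorph.addRight a).isCompact_preimage.2 hKc) ?_ (fun x hx => ?_) u hu B' hB'm hB'p hcov'
  · obtain ⟨x, hx⟩ := hKi
    refine ⟨x - a, ?_⟩
    rw [hK', show (fun x => x + a) = (Homeomorph.addRight a) from rfl,
      ← Homeomorph.preimage_interior]
    simpa using hx
  · have h := hsym _ hx
    rwa [show (2 : ℝ) • a - (x + a) = -x + a by module] at h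

end

end Vale.Agent.P243.SymHalf
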